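import Mathlib

namespace Vale.Agent.Results.P334.GreedySpread

open Finset

/-- Total connection cost of the facility set `S`: every client `j` pays the least
distance `d j i` to a facility `i` of `S`. -/
noncomputable def cost {J F : Type} [Fintype J] (d : J → F → ℝ) (S : Finset F) : ℝ :=
  ∑ j, sInf ((fun i => d j i) '' (S : Set F))

section aux

variable {F : Type}

/-- capped distance from a client (distance function `g`) to `S`, with cap `M` -/
noncomputable def capd (M : ℝ) (g : F → ℝ) (S : Finset F) : ℝ := S.fold min M g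

theorem capd_le_cap (M : ℝ) (g : F → ℝ) (S : Finset F) : capd M g S ≤ M :=
  (Finset.fold_min_le _).2 (Or.inl le_rfl)

theorem capd_le_of_mem (M : ℝ) (g : F → ℝ) (S : Finset F) {i : F} (hi : i ∈ S) :
    capd M g S ≤ g i :=
  (Finset.fold_min_le _).2 (Or.inr ⟨i, hi, le_rfl⟩)

theorem capd_mono [DecidableEq F] (M : ℝ) (g : F → ℝ) {S S' : Finset F} (h : S ⊆ S') :
    capd M g S' ≤ capd M g S := by
  unfold capd
  rw [Finset.le_fold_min]
  exact ⟨capd_le_cap M g S', fun x hx => capd_le_of_mem M g S' (h hx)⟩

theorem capd_insert [DecidableEq F] (M : ℝ) (g : F → ℝ) (S : Finset F) (i : F) :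
    capd M g (insert i S) = min (g i) (capd M g S) := by
  unfold capd
  rw [Finset.fold_insert_idem]

theorem capd_empty (M : ℝ) (g : F → ℝ) : capd M g ∅ = M := by
  unfold capd
  simp

theorem capd_eq_sInf [DecidableEq F] (M : ℝ) (g : F → ℝ) (S : Finset F) (hS : S.Nonempty)
    (hM : ∀ i, g i ≤ M) : capd M g S = sInf (g '' (S : Set F)) := by
  have hbdd : BddBelow (g '' (S : Set F)) := (S.finite_toSet.image g).bddBelow
  have hne : (g '' (S : Set F)).Nonempty := by
    obtain ⟨i, hi⟩ := hS
    exact ⟨g i, Set.mem_image_of_mem g hi⟩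
  apply le_antisymm
  · apply le_csInf hne
    rintro b ⟨i, hi, rfl⟩
    exact capd_le_of_mem M g S hi
  · unfold capd
    rw [Finset.le_fold_min]
    obtain ⟨i0, hi0⟩ := hS
    refine ⟨?_, ?_⟩
    · exact le_trans (csInf_le hbdd (Set.mem_image_of_mem g hi0)) (hM i0)
    · intro x hx
      exact csInf_le hbdd (Set.mem_image_of_mem g hx)

theorem capd_union_le [DecidableEq F] (M : ℝ) (g : F → ℝ) (S T : Finset F) :
    capd M g S - capd M g (S ∪ T) ≤ ∑ i ∈ T, (capd M g S - capd M g (insert i S)) := by
  have hnn : ∀ i ∈ T, 0 ≤ capd M g S - capd M g (insert i S) := by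
    intro i _
    have := capd_mono M g (Finset.subset_insert i S)
    linarith
  have hkey : capd M g S ≤ capd M g (S ∪ T) ∨ ∃ i ∈ T, g i ≤ capd M g (S ∪ T) := by
    have h0 : capd M g (S ∪ T) ≤ capd M g (S ∪ T) := le_rfl
    unfold capd at h0
    rw [Finset.fold_min_le] at h0
    rcases h0 with h0 | ⟨x, hx, h0⟩
    · left
      exact le_trans (capd_le_cap M g S) h0
    · rcases Finset.mem_union.1 hx with hxS | hxT
      · left
        exact le_trans (capd_le_of_mem M g S hxS) h0
      · right
        exact ⟨x, hxT, h0⟩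
  rcases hkey with h | ⟨i, hiT, hi⟩
  · have : 0 ≤ ∑ i ∈ T, (capd M g S - capd M g (insert i S)) := Finset.sum_nonneg hnn
    linarith
  · have h1 : capd M g (insert i S) ≤ g i := by
      rw [capd_insert]
      exact min_le_left _ _
    have h2 : capd M g S - capd M g (insert i S)
        ≤ ∑ i ∈ T, (capd M g S - capd M g (insert i S)) :=
      Finset.single_le_sum (f := fun i => capd M g S - capd M g (insert i S)) hnn hiT
    linarith

end aux

/-- **Greedy on instances of bounded spread.** Let `d j i` be any real client-facility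
distances such that each client's distances to any two facilities differ by a factor at
most `ρ`.  Let `s 0, s 1, ...` be any greedy run: the facility `s t` opened in round `t`
minimises the cost of the set obtained by adding one facility to those already opened.
Then the `k` facilities opened in the first `k` rounds cost at most `1 + (ρ - 1) / e` times
the cost of every nonempty set of at most `k` facilities. -/
theorem result {J F : Type} [Fintype J] [DecidableEq F]
    (d : J → F → ℝ) (ρ : ℝ) (hρ : ∀ j i i', d j i ≤ ρ * d j i')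
    (k : ℕ) (hk : 1 ≤ k) (s : ℕ → F)
    (hs : ∀ t i, cost d (insert (s t) ((Finset.range t).image s))
        ≤ cost d (insert i ((Finset.range t).image s)))
    (T : Finset F) (hT : T.Nonempty) (hTk : T.card ≤ k) :
    cost d ((Finset.range k).image s) ≤ (1 + (ρ - 1) / Real.exp 1) * cost d T := by
  classical
  -- caps
  set M : J → ℝ := fun j => ρ * sInf ((fun i => d j i) '' (T : Set F)) with hMdef
  have hM : ∀ j i, d j i ≤ M j := by
    intro j i
    have hfin : ((fun i => d j i) '' (T : Set F)).Finite := T.finite_toSet.image _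
    have hne : ((fun i => d j i) '' (T : Set F)).Nonempty := by
      obtain ⟨i0, hi0⟩ := hT
      exact ⟨d j i0, Set.mem_image_of_mem _ hi0⟩
    obtain ⟨i', _, hi'⟩ := hne.csInf_mem hfin
    have := hρ j i i'
    simp only [hMdef]
    rw [← hi']
    exact this
  set C : Finset F → ℝ := fun S => ∑ j, capd (M j) (fun i => d j i) S with hCdef
  have hCcost : ∀ S : Finset F, S.Nonempty → C S = cost d S := by
    intro S hS
    simp only [hCdef, cost]
    apply Finset.sum_congr rfl
    intro j _
    exact capd_eq_sInf (M j) (fun i => d j i) S hS (hM j)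
  have hCmono : ∀ S S' : Finset F, S ⊆ S' → C S' ≤ C S := by
    intro S S' h
    simp only [hCdef]
    apply Finset.sum_le_sum
    intro j _
    exact capd_mono (M j) (fun i => d j i) h
  have hCunion : ∀ S U : Finset F, C S - C (S ∪ U) ≤ ∑ i ∈ U, (C S - C (insert i S)) := by
    intro S U
    simp only [hCdef]
    rw [← Finset.sum_sub_distrib]
    have : ∑ i ∈ U, (∑ j, capd (M j) (fun i => d j i) S
        - ∑ j, capd (M j) (fun i => d j i) (insert i S))
        = ∑ j, ∑ i ∈ U, (capd (M j) (fun i => d j i) S
          - capd (M j) (fun i => d j i) (insert i S)) := by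
      rw [Finset.sum_comm]
      apply Finset.sum_congr rfl
      intro i _
      rw [Finset.sum_sub_distrib]
    rw [this]
    apply Finset.sum_le_sum
    intro j _
    exact capd_union_le (M j) (fun i => d j i) S U
  -- greedy sets
  set G : ℕ → Finset F := fun t => (Finset.range t).image s with hGdef
  have hGsucc : ∀ t, G (t + 1) = insert (s t) (G t) := by
    intro t
    simp only [hGdef]
    rw [Finset.range_add_one, Finset.image_insert]
  have hgreedy : ∀ t i, C (G (t + 1)) ≤ C (insert i (G t)) := by
    intro t i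
    rw [hGsucc, hCcost _ (Finset.insert_nonempty _ _), hCcost _ (Finset.insert_nonempty _ _)]
    exact hs t i
  have hkpos : (0 : ℝ) < k := by exact_mod_cast hk
  -- one round
  have hstep : ∀ t, C (G t) - C T ≤ k * (C (G t) - C (G (t + 1))) := by
    intro t
    have h1 : C (G t ∪ T) ≤ C T := hCmono T (G t ∪ T) Finset.subset_union_right
    have h2 := hCunion (G t) T
    have h3 : ∑ i ∈ T, (C (G t) - C (insert i (G t)))
        ≤ ∑ _i ∈ T, (C (G t) - C (G (t + 1))) := by
      apply Finset.sum_le_sum
      intro i _
      have := hgreedy t i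
      linarith
    rw [Finset.sum_const, nsmul_eq_mul] at h3
    have h4 : 0 ≤ C (G t) - C (G (t + 1)) := by
      have := hCmono (G t) (G (t + 1)) (by rw [hGsucc]; exact Finset.subset_insert _ _)
      linarith
    have h5 : (T.card : ℝ) * (C (G t) - C (G (t + 1))) ≤ k * (C (G t) - C (G (t + 1))) := by
      apply mul_le_mul_of_nonneg_right _ h4
      exact_mod_cast hTk
    linarith
  have hq : (0 : ℝ) ≤ 1 - 1 / (k : ℝ) := by
    have : 1 / (k : ℝ) ≤ 1 := by
      rw [div_le_one hkpos]
      exact_mod_cast hk
    linarith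
  have hrec : ∀ t, C (G (t + 1)) - C T ≤ (1 - 1 / (k : ℝ)) * (C (G t) - C T) := by
    intro t
    have h := hstep t
    have hk' : (k : ℝ) ≠ 0 := ne_of_gt hkpos
    have e : (1 - 1 / (k : ℝ)) * (C (G t) - C T)
        = (C (G t) - C T) - (C (G t) - C T) / k := by
      field_simp
    rw [e]
    have : (C (G t) - C T) / k ≤ C (G t) - C (G (t + 1)) := by
      rw [div_le_iff₀ hkpos]
      linarith
    linarith
  have hind : ∀ t, C (G t) - C T ≤ (1 - 1 / (k : ℝ)) ^ t * (C (G 0) - C T) := by
    intro t
    induction t with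
    | zero => simp
    | succ t ih =>
      calc C (G (t + 1)) - C T ≤ (1 - 1 / (k : ℝ)) * (C (G t) - C T) := hrec t
        _ ≤ (1 - 1 / (k : ℝ)) * ((1 - 1 / (k : ℝ)) ^ t * (C (G 0) - C T)) :=
            mul_le_mul_of_nonneg_left ih hq
        _ = (1 - 1 / (k : ℝ)) ^ (t + 1) * (C (G 0) - C T) := by ring
  have hG0 : G 0 = ∅ := by simp [hGdef]
  have hΔ0 : 0 ≤ C (G 0) - C T := by
    have := hCmono (G 0) T (by rw [hG0]; exact Finset.empty_subset _)
    linarith
  have hpow : (1 - 1 / (k : ℝ)) ^ k ≤ Real.exp (-1) := by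
    have := Real.one_sub_div_pow_le_exp_neg (n := k) (t := 1) (by exact_mod_cast hk)
    simpa using this
  have hfinal : C (G k) - C T ≤ Real.exp (-1) * (C (G 0) - C T) :=
    le_trans (hind k) (mul_le_mul_of_nonneg_right hpow hΔ0)
  have hC0 : C (G 0) = ρ * cost d T := by
    rw [hG0]
    simp only [hCdef, capd_empty, hMdef, cost]
    rw [Finset.mul_sum]
  have hGk : (G k).Nonempty := by
    simp only [hGdef]
    apply Finset.Nonempty.image
    rw [Finset.nonempty_range_iff]
    omega
  rw [hCcost _ hGk, hCcost _ hT, hC0] at hfinal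
  have hexp : Real.exp (-1) = 1 / Real.exp 1 := by
    rw [Real.exp_neg]
    ring
  rw [hexp] at hfinal
  have e2 : (1 + (ρ - 1) / Real.exp 1) * cost d T
      = cost d T + 1 / Real.exp 1 * (ρ * cost d T - cost d T) := by
    ring
  rw [e2]
  linarith

end Vale.Agent.Results.P334.GreedySpread
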