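import Vale.Agent.Results.P334.GreedySpread

set_option autoImplicit false

namespace Vale.Agent.Results.P334.GreedySpreadRounds

open Finset
open Vale.Agent.Results.P334.GreedySpread

/-- **Greedy on instances of bounded spread, any number of rounds.** Let `d j i` be any real
client-facility distances such that each client's distances to any two facilities differ by
a factor at most `ρ`, and let `s 0, s 1, ...` be any greedy run (the facility `s t` opened in
round `t` minimises the cost of the set obtained by adding one facility to those already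
opened).  For every nonempty set `T` of at most `k` facilities and every `t ≥ 1`, the `t`
facilities opened in the first `t` rounds cost at most `1 + (ρ - 1) (1 - 1/k)^t` times the
cost of `T`, hence at most `1 + (ρ - 1) exp (-t/k)` times the cost of `T`; and if distances
are nonnegative and `(ρ - 1) exp (-t/k) ≤ ε`, at most `(1 + ε)` times the cost of `T`. -/
theorem result {J F : Type} [Fintype J] [DecidableEq F]
    (d : J → F → ℝ) (ρ : ℝ) (hρ : ∀ j i i', d j i ≤ ρ * d j i')
    (k : ℕ) (hk : 1 ≤ k) (s : ℕ → F)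
    (hs : ∀ t i, cost d (insert (s t) ((Finset.range t).image s))
        ≤ cost d (insert i ((Finset.range t).image s)))
    (T : Finset F) (hT : T.Nonempty) (hTk : T.card ≤ k) (t : ℕ) (ht : 1 ≤ t) :
    cost d ((Finset.range t).image s) ≤ (1 + (ρ - 1) * (1 - 1 / (k : ℝ)) ^ t) * cost d T
    ∧ cost d ((Finset.range t).image s)
        ≤ (1 + (ρ - 1) * Real.exp (-(t : ℝ) / (k : ℝ))) * cost d T
    ∧ ((∀ j i, 0 ≤ d j i) → ∀ ε : ℝ, (ρ - 1) * Real.exp (-(t : ℝ) / (k : ℝ)) ≤ ε →
        cost d ((Finset.range t).image s) ≤ (1 + ε) * cost d T) := by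
  classical
  -- caps
  set M : J → ℝ := fun j => ρ * sInf ((fun i => d j i) '' (T : Set F)) with hMdef
  have hM : ∀ j i, d j i ≤ M j := by
    intro j i
    have hfin : ((fun i => d j i) '' (T : Set F)).Finite := T.finite_toSet.image _
    have hne : ((fun i => d j i) '' (T : Set F)).Nonempty := by
      obtain ⟨i0, hi0⟩ := hT
      exact ⟨d j i0, Set.mem_image_of_mem _ hi0⟩
    obtain ⟨i', _, hi'⟩ := hne.csInf_mem hfin
    have := hρ j i i'
    simp only [hMdef]
    rw [← hi']
    exact this
  set C : Finset F → ℝ := fun S => ∑ j, capd (M j) (fun i => d j i) S with hCdef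
  have hCcost : ∀ S : Finset F, S.Nonempty → C S = cost d S := by
    intro S hS
    simp only [hCdef, cost]
    apply Finset.sum_congr rfl
    intro j _
    exact capd_eq_sInf (M j) (fun i => d j i) S hS (hM j)
  have hCmono : ∀ S S' : Finset F, S ⊆ S' → C S' ≤ C S := by
    intro S S' h
    simp only [hCdef]
    apply Finset.sum_le_sum
    intro j _
    exact capd_mono (M j) (fun i => d j i) h
  have hCunion : ∀ S U : Finset F, C S - C (S ∪ U) ≤ ∑ i ∈ U, (C S - C (insert i S)) := by
    intro S U
    simp only [hCdef]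
    rw [← Finset.sum_sub_distrib]
    have : ∑ i ∈ U, (∑ j, capd (M j) (fun i => d j i) S
        - ∑ j, capd (M j) (fun i => d j i) (insert i S))
        = ∑ j, ∑ i ∈ U, (capd (M j) (fun i => d j i) S
          - capd (M j) (fun i => d j i) (insert i S)) := by
      rw [Finset.sum_comm]
      apply Finset.sum_congr rfl
      intro i _
      rw [Finset.sum_sub_distrib]
    rw [this]
    apply Finset.sum_le_sum
    intro j _
    exact capd_union_le (M j) (fun i => d j i) S U
  -- greedy sets
  set G : ℕ → Finset F := fun t => (Finset.range t).image s with hGdef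
  have hGsucc : ∀ t, G (t + 1) = insert (s t) (G t) := by
    intro t
    simp only [hGdef]
    rw [Finset.range_add_one, Finset.image_insert]
  have hgreedy : ∀ t i, C (G (t + 1)) ≤ C (insert i (G t)) := by
    intro t i
    rw [hGsucc, hCcost _ (Finset.insert_nonempty _ _), hCcost _ (Finset.insert_nonempty _ _)]
    exact hs t i
  have hkpos : (0 : ℝ) < k := by exact_mod_cast hk
  -- one round
  have hstep : ∀ t, C (G t) - C T ≤ k * (C (G t) - C (G (t + 1))) := by
    intro t
    have h1 : C (G t ∪ T) ≤ C T := hCmono T (G t ∪ T) Finset.subset_union_right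
    have h2 := hCunion (G t) T
    have h3 : ∑ i ∈ T, (C (G t) - C (insert i (G t)))
        ≤ ∑ _i ∈ T, (C (G t) - C (G (t + 1))) := by
      apply Finset.sum_le_sum
      intro i _
      have := hgreedy t i
      linarith
    rw [Finset.sum_const, nsmul_eq_mul] at h3
    have h4 : 0 ≤ C (G t) - C (G (t + 1)) := by
      have := hCmono (G t) (G (t + 1)) (by rw [hGsucc]; exact Finset.subset_insert _ _)
      linarith
    have h5 : (T.card : ℝ) * (C (G t) - C (G (t + 1))) ≤ k * (C (G t) - C (G (t + 1))) := by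
      apply mul_le_mul_of_nonneg_right _ h4
      exact_mod_cast hTk
    linarith
  have hq : (0 : ℝ) ≤ 1 - 1 / (k : ℝ) := by
    have : 1 / (k : ℝ) ≤ 1 := by
      rw [div_le_one hkpos]
      exact_mod_cast hk
    linarith
  have hrec : ∀ t, C (G (t + 1)) - C T ≤ (1 - 1 / (k : ℝ)) * (C (G t) - C T) := by
    intro t
    have h := hstep t
    have hk' : (k : ℝ) ≠ 0 := ne_of_gt hkpos
    have e : (1 - 1 / (k : ℝ)) * (C (G t) - C T)
        = (C (G t) - C T) - (C (G t) - C T) / k := by
      field_simp
    rw [e]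
    have : (C (G t) - C T) / k ≤ C (G t) - C (G (t + 1)) := by
      rw [div_le_iff₀ hkpos]
      linarith
    linarith
  have hind : ∀ t, C (G t) - C T ≤ (1 - 1 / (k : ℝ)) ^ t * (C (G 0) - C T) := by
    intro t
    induction t with
    | zero => simp
    | succ t ih =>
      calc C (G (t + 1)) - C T ≤ (1 - 1 / (k : ℝ)) * (C (G t) - C T) := hrec t
        _ ≤ (1 - 1 / (k : ℝ)) * ((1 - 1 / (k : ℝ)) ^ t * (C (G 0) - C T)) :=
            mul_le_mul_of_nonneg_left ih hq
        _ = (1 - 1 / (k : ℝ)) ^ (t + 1) * (C (G 0) - C T) := by ring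
  have hG0 : G 0 = ∅ := by simp [hGdef]
  have hΔ0 : 0 ≤ C (G 0) - C T := by
    have := hCmono (G 0) T (by rw [hG0]; exact Finset.empty_subset _)
    linarith
  have hC0 : C (G 0) = ρ * cost d T := by
    rw [hG0]
    simp only [hCdef, capd_empty, hMdef, cost]
    rw [Finset.mul_sum]
  have hGt : (G t).Nonempty := by
    simp only [hGdef]
    apply Finset.Nonempty.image
    rw [Finset.nonempty_range_iff]
    omega
  have hmain := hind t
  rw [hCcost _ hGt, hCcost _ hT, hC0] at hmain
  rw [hCcost _ hT, hC0] at hΔ0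
  -- `hmain : cost (G t) - cost T ≤ (1 - 1/k)^t * (ρ * cost T - cost T)`
  have hpow0 : (0 : ℝ) ≤ (1 - 1 / (k : ℝ)) ^ t := pow_nonneg hq t
  have hexp : (1 - 1 / (k : ℝ)) ^ t ≤ Real.exp (-(t : ℝ) / (k : ℝ)) := by
    have h1 : 1 - 1 / (k : ℝ) ≤ Real.exp (-(1 / (k : ℝ))) := Real.one_sub_le_exp_neg _
    have h2 : (1 - 1 / (k : ℝ)) ^ t ≤ Real.exp (-(1 / (k : ℝ))) ^ t :=
      pow_le_pow_left₀ hq h1 t
    have h3 : Real.exp (-(1 / (k : ℝ))) ^ t = Real.exp (-(t : ℝ) / (k : ℝ)) := by
      rw [← Real.exp_nat_mul]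
      congr 1
      ring
    rw [h3] at h2
    exact h2
  have hfirst : cost d (G t) ≤ (1 + (ρ - 1) * (1 - 1 / (k : ℝ)) ^ t) * cost d T := by
    have e : (1 + (ρ - 1) * (1 - 1 / (k : ℝ)) ^ t) * cost d T
        = cost d T + (1 - 1 / (k : ℝ)) ^ t * (ρ * cost d T - cost d T) := by ring
    rw [e]
    linarith
  have hsecond : cost d (G t)
      ≤ (1 + (ρ - 1) * Real.exp (-(t : ℝ) / (k : ℝ))) * cost d T := by
    have e : (1 + (ρ - 1) * Real.exp (-(t : ℝ) / (k : ℝ))) * cost d T
        = cost d T + Real.exp (-(t : ℝ) / (k : ℝ)) * (ρ * cost d T - cost d T) := by ring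
    rw [e]
    have := mul_le_mul_of_nonneg_right hexp hΔ0
    linarith
  refine ⟨hfirst, hsecond, ?_⟩
  intro hd ε hε
  have hcT : 0 ≤ cost d T := by
    unfold cost
    apply Finset.sum_nonneg
    intro j _
    apply Real.sInf_nonneg
    rintro x ⟨i, -, rfl⟩
    exact hd j i
  have e : (1 + (ρ - 1) * Real.exp (-(t : ℝ) / (k : ℝ))) * cost d T
      = cost d T + ((ρ - 1) * Real.exp (-(t : ℝ) / (k : ℝ))) * cost d T := by ring
  have h5 := mul_le_mul_of_nonneg_right hε hcT
  calc cost d (G t) ≤ (1 + (ρ - 1) * Real.exp (-(t : ℝ) / (k : ℝ))) * cost d T := hsecond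
    _ = cost d T + ((ρ - 1) * Real.exp (-(t : ℝ) / (k : ℝ))) * cost d T := e
    _ ≤ cost d T + ε * cost d T := by linarith
    _ = (1 + ε) * cost d T := by ring

end Vale.Agent.Results.P334.GreedySpreadRounds
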