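import Vale.Agent.Results.P334.GreedySpread

set_option autoImplicit false

namespace Vale.Agent.Results.P334.GreedySpreadWeighted

open Finset
open Vale.Agent.Results.P334.GreedySpread

/-- **Greedy with client-dependent bounds.** Let `d j i` be any real client-facility distances
and let `s 0, s 1, ...` be any greedy run (the facility `s t` opened in round `t` minimises the
cost of the set obtained by adding one facility to those already opened).  Let `T` be a
nonempty set of at most `k` facilities and `t ≥ 1`.

* (1) For every family of upper bounds `M j ≥ d j i` (all `i`), the `t` facilities opened in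
  the first `t` rounds cost at most `cost T + (1 - 1/k)^t (∑ j, M j - cost T)`.
* (2) If client `j`'s distances to any two facilities differ by a factor at most `ρ j`
  (a spread bound that may depend on the client), they cost at most
  `∑ j, (1 + (ρ j - 1) (1 - 1/k)^t) d(j, T)`, where `d(j, T)` is the least distance from `j`
  to `T`;
* (3) and at most `∑ j, (1 + (ρ j - 1) exp (-t/k)) d(j, T)`. -/
theorem result {J F : Type} [Fintype J] [DecidableEq F]
    (d : J → F → ℝ) (k : ℕ) (hk : 1 ≤ k) (s : ℕ → F)
    (hs : ∀ t i, cost d (insert (s t) ((Finset.range t).image s))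
        ≤ cost d (insert i ((Finset.range t).image s)))
    (T : Finset F) (hT : T.Nonempty) (hTk : T.card ≤ k) (t : ℕ) (ht : 1 ≤ t) :
    (∀ M : J → ℝ, (∀ j i, d j i ≤ M j) →
      cost d ((Finset.range t).image s)
        ≤ cost d T + (1 - 1 / (k : ℝ)) ^ t * (∑ j, M j - cost d T))
    ∧ (∀ ρ : J → ℝ, (∀ j i i', d j i ≤ ρ j * d j i') →
      cost d ((Finset.range t).image s)
        ≤ ∑ j, (1 + (ρ j - 1) * (1 - 1 / (k : ℝ)) ^ t)
            * sInf ((fun i => d j i) '' (T : Set F)))
    ∧ (∀ ρ : J → ℝ, (∀ j i i', d j i ≤ ρ j * d j i') →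
      cost d ((Finset.range t).image s)
        ≤ ∑ j, (1 + (ρ j - 1) * Real.exp (-(t : ℝ) / (k : ℝ)))
            * sInf ((fun i => d j i) '' (T : Set F))) := by
  classical
  have hkpos0 : (0 : ℝ) < k := by exact_mod_cast hk
  have hq0 : (0 : ℝ) ≤ 1 - 1 / (k : ℝ) := by
    have : 1 / (k : ℝ) ≤ 1 := by
      rw [div_le_one hkpos0]
      exact_mod_cast hk
    linarith
  -- (1) general caps
  have hcaps : ∀ M : J → ℝ, (∀ j i, d j i ≤ M j) →
      cost d ((Finset.range t).image s)
        ≤ cost d T + (1 - 1 / (k : ℝ)) ^ t * (∑ j, M j - cost d T) := by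
    intro M hM
    set C : Finset F → ℝ := fun S => ∑ j, capd (M j) (fun i => d j i) S with hCdef
    have hCcost : ∀ S : Finset F, S.Nonempty → C S = cost d S := by
      intro S hS
      simp only [hCdef, cost]
      apply Finset.sum_congr rfl
      intro j _
      exact capd_eq_sInf (M j) (fun i => d j i) S hS (hM j)
    have hCmono : ∀ S S' : Finset F, S ⊆ S' → C S' ≤ C S := by
      intro S S' h
      simp only [hCdef]
      apply Finset.sum_le_sum
      intro j _
      exact capd_mono (M j) (fun i => d j i) h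
    have hCunion : ∀ S U : Finset F, C S - C (S ∪ U) ≤ ∑ i ∈ U, (C S - C (insert i S)) := by
      intro S U
      simp only [hCdef]
      rw [← Finset.sum_sub_distrib]
      have : ∑ i ∈ U, (∑ j, capd (M j) (fun i => d j i) S
          - ∑ j, capd (M j) (fun i => d j i) (insert i S))
          = ∑ j, ∑ i ∈ U, (capd (M j) (fun i => d j i) S
            - capd (M j) (fun i => d j i) (insert i S)) := by
        rw [Finset.sum_comm]
        apply Finset.sum_congr rfl
        intro i _
        rw [Finset.sum_sub_distrib]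
      rw [this]
      apply Finset.sum_le_sum
      intro j _
      exact capd_union_le (M j) (fun i => d j i) S U
    -- greedy sets
    set G : ℕ → Finset F := fun t => (Finset.range t).image s with hGdef
    have hGsucc : ∀ t, G (t + 1) = insert (s t) (G t) := by
      intro t
      simp only [hGdef]
      rw [Finset.range_add_one, Finset.image_insert]
    have hgreedy : ∀ t i, C (G (t + 1)) ≤ C (insert i (G t)) := by
      intro t i
      rw [hGsucc, hCcost _ (Finset.insert_nonempty _ _), hCcost _ (Finset.insert_nonempty _ _)]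
      exact hs t i
    have hkpos : (0 : ℝ) < k := by exact_mod_cast hk
    -- one round
    have hstep : ∀ t, C (G t) - C T ≤ k * (C (G t) - C (G (t + 1))) := by
      intro t
      have h1 : C (G t ∪ T) ≤ C T := hCmono T (G t ∪ T) Finset.subset_union_right
      have h2 := hCunion (G t) T
      have h3 : ∑ i ∈ T, (C (G t) - C (insert i (G t)))
          ≤ ∑ _i ∈ T, (C (G t) - C (G (t + 1))) := by
        apply Finset.sum_le_sum
        intro i _
        have := hgreedy t i
        linarith
      rw [Finset.sum_const, nsmul_eq_mul] at h3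
      have h4 : 0 ≤ C (G t) - C (G (t + 1)) := by
        have := hCmono (G t) (G (t + 1)) (by rw [hGsucc]; exact Finset.subset_insert _ _)
        linarith
      have h5 : (T.card : ℝ) * (C (G t) - C (G (t + 1))) ≤ k * (C (G t) - C (G (t + 1))) := by
        apply mul_le_mul_of_nonneg_right _ h4
        exact_mod_cast hTk
      linarith
    have hq : (0 : ℝ) ≤ 1 - 1 / (k : ℝ) := by
      have : 1 / (k : ℝ) ≤ 1 := by
        rw [div_le_one hkpos]
        exact_mod_cast hk
      linarith
    have hrec : ∀ t, C (G (t + 1)) - C T ≤ (1 - 1 / (k : ℝ)) * (C (G t) - C T) := by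
      intro t
      have h := hstep t
      have hk' : (k : ℝ) ≠ 0 := ne_of_gt hkpos
      have e : (1 - 1 / (k : ℝ)) * (C (G t) - C T)
          = (C (G t) - C T) - (C (G t) - C T) / k := by
        field_simp
      rw [e]
      have : (C (G t) - C T) / k ≤ C (G t) - C (G (t + 1)) := by
        rw [div_le_iff₀ hkpos]
        linarith
      linarith
    have hind : ∀ t, C (G t) - C T ≤ (1 - 1 / (k : ℝ)) ^ t * (C (G 0) - C T) := by
      intro t
      induction t with
      | zero => simp
      | succ t ih =>
        calc C (G (t + 1)) - C T ≤ (1 - 1 / (k : ℝ)) * (C (G t) - C T) := hrec t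
          _ ≤ (1 - 1 / (k : ℝ)) * ((1 - 1 / (k : ℝ)) ^ t * (C (G 0) - C T)) :=
              mul_le_mul_of_nonneg_left ih hq
          _ = (1 - 1 / (k : ℝ)) ^ (t + 1) * (C (G 0) - C T) := by ring
    have hG0 : G 0 = ∅ := by simp [hGdef]
    have hΔ0 : 0 ≤ C (G 0) - C T := by
      have := hCmono (G 0) T (by rw [hG0]; exact Finset.empty_subset _)
      linarith
    have hC0 : C (G 0) = ∑ j, M j := by
      rw [hG0]
      simp only [hCdef, capd_empty]
    have hGt : (G t).Nonempty := by
      simp only [hGdef]
      apply Finset.Nonempty.image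
      rw [Finset.nonempty_range_iff]
      omega
    have hmain := hind t
    rw [hCcost _ hGt, hCcost _ hT, hC0] at hmain
    linarith
  -- spread: caps `ρ j * d(j, T)`
  have hmin : ∀ j : J, ∃ i' ∈ T, sInf ((fun i => d j i) '' (T : Set F)) = d j i' := by
    intro j
    have hfin : ((fun i => d j i) '' (T : Set F)).Finite := T.finite_toSet.image _
    have hne : ((fun i => d j i) '' (T : Set F)).Nonempty := by
      obtain ⟨i0, hi0⟩ := hT
      exact ⟨d j i0, Set.mem_image_of_mem _ hi0⟩
    obtain ⟨i', hi'T, hi'⟩ := hne.csInf_mem hfin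
    exact ⟨i', hi'T, hi'.symm⟩
  have hsecond : ∀ ρ : J → ℝ, (∀ j i i', d j i ≤ ρ j * d j i') →
      cost d ((Finset.range t).image s)
        ≤ ∑ j, (1 + (ρ j - 1) * (1 - 1 / (k : ℝ)) ^ t)
            * sInf ((fun i => d j i) '' (T : Set F)) := by
    intro ρ hρ
    have h := hcaps (fun j => ρ j * sInf ((fun i => d j i) '' (T : Set F))) (by
      intro j i
      obtain ⟨i', -, hi'⟩ := hmin j
      show d j i ≤ ρ j * sInf ((fun i => d j i) '' (T : Set F))
      rw [hi']
      exact hρ j i i')
    have e : cost d T + (1 - 1 / (k : ℝ)) ^ t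
          * (∑ j, ρ j * sInf ((fun i => d j i) '' (T : Set F)) - cost d T)
        = ∑ j, (1 + (ρ j - 1) * (1 - 1 / (k : ℝ)) ^ t)
            * sInf ((fun i => d j i) '' (T : Set F)) := by
      simp only [cost]
      rw [← Finset.sum_sub_distrib, Finset.mul_sum, ← Finset.sum_add_distrib]
      apply Finset.sum_congr rfl
      intro j _
      ring
    rw [e] at h
    exact h
  have hexp : (1 - 1 / (k : ℝ)) ^ t ≤ Real.exp (-(t : ℝ) / (k : ℝ)) := by
    have h1 : 1 - 1 / (k : ℝ) ≤ Real.exp (-(1 / (k : ℝ))) := Real.one_sub_le_exp_neg _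
    have h2 : (1 - 1 / (k : ℝ)) ^ t ≤ Real.exp (-(1 / (k : ℝ))) ^ t :=
      pow_le_pow_left₀ hq0 h1 t
    have h3 : Real.exp (-(1 / (k : ℝ))) ^ t = Real.exp (-(t : ℝ) / (k : ℝ)) := by
      rw [← Real.exp_nat_mul]
      congr 1
      ring
    rw [h3] at h2
    exact h2
  refine ⟨hcaps, hsecond, ?_⟩
  intro ρ hρ
  refine le_trans (hsecond ρ hρ) ?_
  apply Finset.sum_le_sum
  intro j _
  obtain ⟨i', -, hi'⟩ := hmin j
  have hnn : 0 ≤ (ρ j - 1) * sInf ((fun i => d j i) '' (T : Set F)) := by
    rw [hi', sub_mul, one_mul]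
    have := hρ j i' i'
    linarith
  have h5 := mul_le_mul_of_nonneg_right hexp hnn
  have e1 : (1 + (ρ j - 1) * (1 - 1 / (k : ℝ)) ^ t) * sInf ((fun i => d j i) '' (T : Set F))
      = sInf ((fun i => d j i) '' (T : Set F))
        + (1 - 1 / (k : ℝ)) ^ t * ((ρ j - 1) * sInf ((fun i => d j i) '' (T : Set F))) := by
    ring
  have e2 : (1 + (ρ j - 1) * Real.exp (-(t : ℝ) / (k : ℝ)))
        * sInf ((fun i => d j i) '' (T : Set F))
      = sInf ((fun i => d j i) '' (T : Set F))
        + Real.exp (-(t : ℝ) / (k : ℝ))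
          * ((ρ j - 1) * sInf ((fun i => d j i) '' (T : Set F))) := by
    ring
  rw [e1, e2]
  linarith

end Vale.Agent.Results.P334.GreedySpreadWeighted
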